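import Crest.Agent.X212.Glw30.Main
import Crest.Agent.X212.Gb50.Geo
import Crest.Agent.X212.Cay24.GlS
import Crest.Agent.X212.Gl67.Hyp

/-!
# Row 212, GL-W (helper30), part 4: the leaf `WX`
-/

set_option autoImplicit false
set_option linter.unusedSectionVars false
noncomputable section
open scoped Manifold ContDiff Topology InnerProductSpace
open Set Function Filter

namespace Crest.Agent.X212.Glw30
open An An.Job M Nd18 Pj41 Cmp73 Sob92 Gj67 Met55
open Loc66 (VCv FCv)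
open Cnt93 (LU)
open Map77 (Cf fa fp)

section gen
variable {E : Type} [NormedAddCommGroup E] [NormedSpace ℝ E] [FiniteDimensional ℝ E]
  [MeasurableSpace E] [BorelSpace E]
  {HM : Type} [TopologicalSpace HM] {I : ModelWithCorners ℝ E HM} [I.Boundaryless]
  {M : Type} [TopologicalSpace M] [ChartedSpace HM M] [IsManifold I ∞ M] [MeasurableSpace M]
  {E' : Type} [NormedAddCommGroup E'] [NormedSpace ℝ E'] [FiniteDimensional ℝ E']
  [MeasurableSpace E'] [BorelSpace E']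
  {HM' : Type} [TopologicalSpace HM'] {I' : ModelWithCorners ℝ E' HM'} [I'.Boundaryless]
  {M' : Type} [TopologicalSpace M'] [ChartedSpace HM' M'] [IsManifold I' ∞ M'] [MeasurableSpace M']
  {ι lam α : Type} [Fintype ι] [Fintype lam] {l : Filter α} {x : M} {B : Base M ι lam}

theorem vcv_congr {X X' : α → VF I M} {Y : VF I M} (h : VCv l univ X Y) (e : ∀ᶠ i in l, X' i = X i) :
    VCv l univ X' Y :=
  ⟨fun k x hx => (h.mb k x hx).congr ((e.prod_inl _).mono fun _ hq => by rw [hq]),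
    fun x hx => (h.pt x hx).congr' (e.mono fun _ hn => by simp only [hn])⟩

theorem iso_lit {m : Md M ι lam} (h : m.OK I B) {p ρ j} (e1 : p x = m.p x) (e2 : ∀ a, ρ a x = m.ρ a x)
    (e3 : j x = m.j x) : Iso0 I ⟨m.N, m.J, p, ρ, j⟩ m {x} m.p := by
  have k := Iso0.refl (OK.on h {x})
  refine ⟨k.su, ?_, k.J, ?_, ?_⟩ <;> rintro _ rfl <;> simp only [e1, e2, e3]
  exacts [k.iso _ rfl, k.ρ _ rfl, k.j _ rfl]

/-- the coefficients of the reference connections are natural -/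
theorem w0_rel {G₀ G : Geo I M ι lam} {G₀' G' : Geo I' M' ι lam} {ψ : M → M'} {O O₁ : Set M}
    (h0 : FRel G₀.F G₀'.F ψ O) (h : FRel G.F G'.F ψ O₁) (hx : x ∈ O) (hx' : x ∈ O₁)
    (a0 : ∀ a, G₀'.a a (ψ x) = G₀.a a x) (a1 : ∀ a, G'.a a (ψ x) = G.a a x) (B' : Base M' ι lam) :
    trS G₀'.F G'.F (ψ x) = trS G₀.F G.F x ∧ cfS G₀'.F G'.F (ψ x) = cfS G₀.F G.F x ∧
      laS B' G₀' G' (ψ x) = laS (cmB ψ B') G₀ G x := by
  have k : trS G₀'.F G'.F (ψ x) = trS G₀.F G.F x := funext₂ fun a b => (congrFun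
    (fT_rel (h0.ld x hx) (pre_sp _ x) (fun a => h0.e a x hx) (h.e a x hx')) b).symm
  refine ⟨k, ?_, ?_⟩
  · funext a b c
    simp only [cfS, Spn45.dG, k, h0.Gam hx, h.Gam hx']
  · funext a
    simp only [laS, dA, k, a0, a1]

/-- the coefficients of the reference connections converge -/
theorem w0_td [l.NeBot] [T2Space M] [BorelSpace M] [SecondCountableTopology M] {G₀ : Geo I M ι lam} {G : α → Geo I M ι lam} (hB : B.OK I) (hG : G₀.OK B)
    (f : FCv l univ (fun i => (G i).F) G₀.F) (ha : ∀ a, Cv I l univ (fun i => (G i).a a) (G₀.a a))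
    (x : M) : (∀ a b, Tendsto (fun p : α × M => trS G₀.F (G p.1).F p.2 a b) (l ×ˢ 𝓝 x)
      (𝓝 (B.P a b x))) ∧
    (∀ a b k, Tendsto (fun p : α × M => cfS G₀.F (G p.1).F p.2 a b k) (l ×ˢ 𝓝 x) (𝓝 0)) ∧
    ∀ a, Tendsto (fun p : α × M => laS B G₀ (G p.1) p.2 a) (l ×ˢ 𝓝 x) (𝓝 0) := by
  classical
  have g := Gb50.agr_refl G₀ isOpen_univ
  have k : ∀ a b, Cv I l univ (fun i x => trS G₀.F (G i).F x a b) fun x => trS G₀.F G₀.F x a b :=
    fun a b => (FCv.fixed (F₀ := G₀.F)).fT isOpen_univ (f a) b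
  refine ⟨fun a b => ?_, fun a b c => ?_, fun a => ?_⟩
  · have := (k a b).tendsto (mem_univ x)
    rwa [trS_self, hG.P] at this
  · have := ((Cv.const (1 / 4 : ℝ)).mul ((f.Gam isOpen_univ a b c).sub (Cv.sum fun j =>
      (k a j).mul ((FCv.fixed (F₀ := G₀.F)).Gam isOpen_univ j b c)))).tendsto (mem_univ x)
    exact this.trans_eq (congrArg 𝓝 (congrFun (congrFun (congrFun (g.cf (mem_univ x)) a) b) c))
  · have := ((Cv.const (-(1 / 4) : ℝ)).mul ((((Cv.const B.il).mul ((ha a).sub (Cv.sum fun j =>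
      (k a j).smul (Cv.fixed' (hG.con.sm j))))).mul (Cv.fixed' hB.sl)).clm Wz78.trE)).tendsto
      (mem_univ x)
    exact this.trans_eq (congrArg 𝓝 (congrFun (g.la hG (mem_univ x)) a))

theorem A_pull {κ : Type} [Fintype κ] [DecidableEq κ] {K : Line51.Ln E M κ} {K' : Line51.Ln E' M' κ} {ψ : M → M'}
    (h : IsLocalDiffeomorphAt I I' ∞ ψ x) (k : K = K'.pull I I' ψ) (o : K'.On I' univ)
    {e : ι → VF I M} {e' : ι → VF I' M'} {a : ι} (q : pbv I I' ψ (e' a) = e a) :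
    K'.A I' e' a (ψ x) = K.A I e a x := by
  subst k
  rw [Line51.Ln.A, Line51.Ln.A, ← q]
  exact congrArg Line51.rl ((congrArg (K'.cm I' (ψ x)) (pbv_rel h _).symm).trans
    (Line51.cm_pull (o.sm _ trivial) (h.contMDiffAt.mdifferentiableAt (by simp)) _).symm)

theorem LU_one {κ : Type} [Fintype κ] {J p q : En κ} (hJ : J * p = p * J) (hp : ∀ a, p (q a) = q a)
    {f : L2c κ} (hf : f ∈ Hd J q) : LU (csE J (1 : Circle) ∘L p) f = f := by
  rw [show csE J (1 : Circle) ∘L p = p from ContinuousLinearMap.ext fun _ => Eqv71.cs_one _ _]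
  exact Cnt93.LU_self hJ (fun a e => e ▸ hp a) hf

end gen

variable {Wi : Type} {X : Mf 4} {A κ lam : Type} [Fintype A] [Fintype κ] [Fintype lam]
  [DecidableEq lam] {M : Mark X A κ} {W : World M} {L : ML M lam} {Λ : Lns W L}
  {A' h : Type} [Fintype A'] [DecidableEq A'] [Fintype h] {r n : ℕ}
  {J : Job Wi Λ A' h r n} {c : M.Cl} {α : Type} {l : Filter α}

namespace Hy
variable (H : Hy J c) {s : α → A' → ℝ} {s₀ : A' → ℝ} (hs : Tendsto s l (𝓝 s₀))
  (hb : J.Θ s₀ ∈ M.Br c.1) (ho : J.Θ s₀ ∈ M.O c.1) (hO : ∀ᶠ i in l, J.Θ (s i) ∈ M.O M.c0.1)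
include H hs hb ho hO

theorem fcv : FCv l univ (fun i => (cmG (up_loc H.up) (J.G M.c0 (s i))).F) (J.G c s₀).F := fun a => by
  rw [G_e ho]
  exact vcv_congr (H.vcv hs hb ho a) (hO.mono fun i k =>
    congrArg (fun e : Option κ → _ => pbv _ _ (Job.up c) (e a)) (G_e k))

theorem acv (a : Option κ) : Cv (W.Z c).I l univ
    (fun i => (cmG (up_loc H.up) (J.G M.c0 (s i))).a a) ((J.G c s₀).a a) := by
  refine (cv_of_jAt (U := univ) (f := fun p z => ((Λ.Λ J.m M.c0).ln p).A (W.Z M.c0).I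
    ((W.L J.m M.c0).e p) a (Job.up c z)) (fun x _ => ?_)
    ((H.ok.sm.continuous.tendsto _).comp hs)).congr' isOpen_univ (hO.mono fun i k x _ =>
      congrArg (fun e => ((Λ.Λ J.m M.c0).ln (J.Θ (s i))).A (W.Z M.c0).I e a (Job.up c x)) (G_e k))
    fun x _ => ?_
  · have h1 := W.up_mem_Ω H.up (Mark.mem_Ω _ ho x)
    rw [Mark.mp_br hb, ← up_eq H.up] at h1
    exact (((continuous_id.prodMap (up_sm H.up).continuous).tendsto (J.Θ s₀, x)).eventually
      ((W.isOpen_Ω (c := M.c0)).mem_nhds h1)).mono fun q hq =>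
        jAt_comp (up_sm H.up _) ((Λ.Λ J.m M.c0).jAt_A hq a)
  · have h2 := H.nΛ.ln H.up (fun _ k => H.sub k.1) (J.Θ s₀)
    rw [Mark.mp_br hb, ← up_eq H.up] at h2
    have h3 := A_pull (up_loc H.up x) h2 ((Λ.Λ J.m M.c0).ln_on _) (e := (J.G c s₀).F.e)
      (e' := J.fr M.c0 s₀) ((H.fu_eq hb a).trans (congrFun (G_e ho) a).symm)
    exact h3.symm

end Hy

variable {σ : Cel A'} {a : A'}
  {U Up R : Type} [NormedAddCommGroup U] [NormedSpace ℝ U] [NormedAddCommGroup Up]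
  [NormedSpace ℝ Up] [NormedAddCommGroup R] [NormedSpace ℝ R] [FiniteDimensional ℝ U]
  [FiniteDimensional ℝ Up] [FiniteDimensional ℝ R] {d : Dat J σ a U Up R}
  {q₀ : Wi →₀ ℝ} {δ : ℝ}

theorem hy (H : d.OK q₀ δ) : Hy J (J.cf a) :=
  ⟨H.ok, H.nW, H.nΛ, Gb50.up0 H, fun _ k => Gb50.sub_m H ⟨k, id⟩, H.unc⟩

theorem mix_lo {τ : d.Ta} (G : Cay24.At d τ) {z} (hz : d.hS z ≤ d.la τ - 2) :
    z ∈ (d.φ τ).source ∧ ∀ {V : Type} [NormedAddCommGroup V] [NormedSpace ℝ V]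
      (f : (W.Z (J.cf a)).M → V) (g : d.Y × ℝ → V), d.mix τ f g (up (J.cf a) z) = f z := by
  have h1 : z ∈ (d.φ τ).source := by
    rw [G.φ.2.1]; show d.hS z < d.la τ; linarith
  refine ⟨h1, fun f g => show d.mix τ f g (d.φ τ z) = f z from ?_⟩
  rw [Dat.mix, Dat.χ, (G.φ.2.2.2 z h1).1, Real.smoothTransition.zero_of_nonpos (by linarith),
    (d.φ τ).left_inv h1]
  simp

/-- **WX** -/
theorem wx (H : d.OK q₀ δ) {k : ℕ} (hk : 3 ≤ k) (b : d.Base) : d.WX δ k := by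
  intro α l τ w p S
  have g := Gb50.geo H
  have Y := hy H
  have ok := H.sol.ok H.ok H.mem
  have br := H.sol.br H.ok H.mem
  rcases l.eq_or_neBot with rfl | _
  · exact ⟨tendsto_bot, fun _ => d.y.x.m.p, 1, ⟨fun _ => ⟨univ, isOpen_univ, trivial, eventually_bot⟩,
      fun _ _ => by rw [bot_prod]; exact tendsto_bot, fun _ => by rw [bot_prod]; exact tendsto_bot,
      tendsto_bot⟩, fun _ => ⟨1, tendsto_bot⟩⟩
  obtain ⟨r', r0, C, -, hC⟩ := g.fam
  obtain ⟨C', b⟩ := b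
  have n0 := (Dat.sml S.1).1 S
  have np : Tendsto (fun i => ‖p i‖) l (𝓝 0) :=
    squeeze_zero (fun _ => norm_nonneg _) (fun i => norm_snd_le ((d.Xs _).sp δ k (w i) (p i))) n0
  have p1 : Tendsto (fun i => (p i).1) l (𝓝 0) := squeeze_zero_norm (fun i => norm_fst_le (p i)) np
  have p2 : Tendsto (fun i => (p i).2.1) l (𝓝 0) :=
    squeeze_zero_norm (fun i => (norm_fst_le _).trans (norm_snd_le (p i))) np
  have p3 : Tendsto (fun i => (p i).2.2.1) l (𝓝 0) :=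
    squeeze_zero_norm (fun i => (norm_fst_le _).trans ((norm_snd_le _).trans (norm_snd_le (p i)))) np
  have p4 : ∀ j, Tendsto (fun i => ((p i).2.2.2 j).1) l (𝓝 (0 : L2c (Fin d.N))) := fun j =>
    squeeze_zero_norm (fun i => (norm_le_pi_norm (p i).2.2.2 j).trans ((norm_snd_le (p i).2.2).trans
      ((norm_snd_le _).trans (norm_snd_le (p i))))) np
  have hs : Tendsto (fun i => d.s (τ i) (p i).1) l (𝓝 d.y.s) := Gb50.s_one H ▸
    ((Gb50.cd_ee d.y.s).continuous.tendsto (1, 0)).comp ((tendsto_comap.comp S.1).prodMk_nhds p1)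
  have hO : ∀ᶠ i in l, J.Θ (d.s (τ i) (p i).1) ∈ M.O M.c0.1 :=
    ((S.1.eventually hC).and (p1.eventually (Metric.closedBall_mem_nhds 0 r0))).mono
      fun i k => k.1.2.1.sub k.2
  have nw : ∀ x, Tendsto (fun q : α × _ => (w q.1).1 (up (J.cf a) q.2)) (l ×ˢ 𝓝 x) (𝓝 0) :=
    fun x => squeeze_zero_norm' (((S.1.eventually hC).prod_inl _).mono fun q k =>
      Cay24.sup_sp (d.Xs (τ q.1)) k.2.1.t0 H.δ0.le hk (w q.1) (p q.1) _)
      (mul_zero √|C 0| ▸ (n0.comp tendsto_fst).const_mul _)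
  have lo : ∀ x, ∀ᶠ q : α × _ in l ×ˢ 𝓝 x, Cay24.At d (τ q.1) ∧ d.hS q.2 ≤ d.la (τ q.1) - 2 :=
    fun x => ((S.1.eventually ((Cay24.ev_at g).and (g.la.eventually_ge_atTop (d.hS x + 3)))).prod_mk
      (d.sm_hS.continuous.continuousAt.eventually (gt_mem_nhds (lt_add_one _)))).mono
        fun q k => ⟨k.1.1, by linarith [k.1.2, k.2]⟩
  have ct : ∀ {V : Type} [NormedAddCommGroup V] [NormedSpace ℝ V] {f : (W.Z (J.cf a)).M → V}
      (_ : Sm (W.Z (J.cf a)).I f) x, Tendsto (fun q : α × _ => f q.2) (l ×ˢ 𝓝 x) (𝓝 (f x)) :=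
    fun k _ => k.continuous.continuousAt.tendsto.comp tendsto_snd
  have cn : ∀ {β V : Type} {F : Filter β} [TopologicalSpace V] (v : V),
      Tendsto (fun _ : β => v) F (𝓝 v) := by intros; exact tendsto_const_nhds
  have hW : ∀ i x, Tendsto (fun q : α × _ => (d.ob (τ q.1) (w q.1) (p q.1)).x.W i (up (J.cf a) q.2))
      (l ×ˢ 𝓝 x) (𝓝 (d.y.x.W i x)) := fun i x => by
    obtain ⟨k1, k2, k3⟩ := w0_td (Λ.B_ok _ _) (Λ.G_ok _ ok.2) (Y.fcv hs br ok.2 hO)
      (Y.acv hs br ok.2 hO) x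
    have k4 := (td_app (cn fa) (nw x)).add
      (td_app (ct (Prm93.Cb.sm H.okS.cb) x) (p2.comp tendsto_fst))
    have k5 := (((tendsto_finsetSum Finset.univ fun j _ => (k1 i j).smul
      (ct (ok.1.conn.cc.sm j) x)).add (tendsto_finsetSum Finset.univ fun j _ =>
        tendsto_finsetSum Finset.univ fun j' _ => (k2 i j j').smul ((ct (ok.1.ok.sρ j) x).mul
          (ct (ok.1.ok.sρ j') x)))).add ((k3 i).smul ((cn d.Jc).mul (ct ok.1.ok.sp x)))).add
      (td_app (cn opL) (tendsto_finsetSum Finset.univ fun j _ => (k1 i j).smul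
        (td_app (cn (PiLp.proj 2 (fun _ => HS (Fin d.N)) j)) k4)))
    simp only [ok.1.conn.cc.proj, zero_smul, Finset.sum_const_zero, add_zero, map_zero,
      smul_zero] at k5
    refine k5.congr' ((lo x).mono fun q e => ?_)
    obtain ⟨e1, e2⟩ := mix_lo e.1 e.2
    obtain ⟨e3, e4, e5⟩ := w0_rel (G₀ := J.G (J.cf a) d.y.s) (G₀' := d.Gh (τ q.1))
      (G := cmG (up_loc Y.up) (J.G M.c0 (d.s (τ q.1) (p q.1).1))) (ψ := up (J.cf a))
      (G' := J.G M.c0 (d.s (τ q.1) (p q.1).1))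
      (fRel_of_iso e.1.φ.1) (cmF_rel (up_loc Y.up) _) e1 trivial (e.1.φ.2.2.2 _ e1).2 (fun _ => rfl) (J.B M.c0)
    rw [← Y.B_eq] at e5
    simp only [← e3, ← e4, ← e5]
    simp only [Dat.ob, Gl67.Sid.cfg, Md.addC, Mod61.Fam.W0, Dat.Xs, e2, Wz78.idx_apply]
    rfl
  refine ⟨hs, fun _ => d.y.x.m.p, fun _ => 1, (wl_iff ((S.1.eventually b).mono fun i k =>
    Y.ok_pb k.1.ok) ok.1.ok).2 ⟨fun x => (lo x).mono fun q e => ?_, fun i x => ?_, fun x => ?_, ?_⟩,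
    fun j => ⟨fun _ => 1, ?_⟩⟩
  · have e2 := @(mix_lo e.1 e.2).2
    exact iso_lit ok.1.ok (e2 _ _) (fun _ => e2 _ _) (e2 _ _)
  · have k1 := ct ok.1.ok.sp x
    have k2 := td_cc (((dv_td (Y.vcv hs br ok.2 i) (.of_forall ok.1.ok.sp)).add
      (td_cc (ct (ok.1.conn.cc.sm i) x) k1)).sub (td_cc k1 (hW i x))) (td_ad k1)
    have k3 := ok.1.conn.cc.par i x
    rw [G_e ok.2, ← add_sub_assoc] at k3
    exact k2.trans_eq (congrArg 𝓝 ((congrArg (· ∘L ad (d.y.x.m.p x)) k3).trans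
      (ContinuousLinearMap.zero_comp _)))
  · have k1 := td_app (ct ok.1.ok.sp x) ((ct ok.1.sm x).add (td_app (cn fp) (nw x)))
    rw [map_zero, add_zero, Eqv71.p_Φ ok.1] at k1
    refine k1.congr' ((lo x).mono fun q e => ?_)
    exact (congrArg (fun v => d.y.x.m.p q.2 (v + _)) ((mix_lo e.1 e.2).2 _ _).symm).trans
      (Eqv71.cs_one _ _).symm
  · have := (cn d.y.x.z).add p3
    rw [add_zero] at this
    exact this.congr fun i => by simp only [Circle.coe_one, one_pow, one_smul]; rfl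
  · have k1 := td_LU d.Jc (cn 1) (cn (d.y.x.m.p (J.cut (J.cf a) j).x0)) ((cn (d.y.ψ j).1).add (p4 j))
    have k2 := LU_one (ok.1.ok.Jp _) (Eqv71.p_pp ok.1.ok _) (d.y.ψ j).2
    rw [add_zero] at k1
    refine Tendsto.congr' ((S.1.eventually b).mono fun i e => ?_) (k1.trans_eq (congrArg 𝓝 k2))
    refine congrArg (LU _) ?_
    exact congrArg (fun u => u.1 + ((p i).2.2.2 j).1)
      (Submodule.orthogonalProjectionOnto_mem_subspace_eq_self ⟨_, e.2.2.2.2 j⟩).symm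

end Crest.Agent.X212.Glw30
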