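import Crest.Agent.X212.Glw30.Gen
import Crest.Agent.X212.Gl67.Leaf
import Crest.Agent.X212.M.Jcv
import Crest.Agent.X212.M.Cnv

/-!
# Row 212, GL-W (helper30), part 3: the leaves `WU`, `WC`, `WI`
-/

set_option autoImplicit false
set_option linter.unusedSectionVars false
noncomputable section
open scoped Manifold ContDiff Topology InnerProductSpace
open Set Function Filter

namespace Crest.Agent.X212.Glw30
open An An.Job M Nd18 Pj41 Cmp73 Sob92 Gj67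
open Loc66 (VCv)
open Eqv71 (Ad0)
open Cnt93 (LU LU_LU)

variable {Wi : Type} {X : Mf 4} {A κ lam : Type} [Fintype A] [Fintype κ] [Fintype lam]
  [DecidableEq lam] {M : Mark X A κ} {W : World M} {L : ML M lam} {Λ : Lns W L}
  {A' h : Type} [Fintype A'] [DecidableEq A'] [Fintype h] {r n : ℕ}
  {J : Job Wi Λ A' h r n} {c : M.Cl} {α : Type} {l : Filter α}

theorem G_e {s : A' → ℝ} (h : J.Θ s ∈ M.O c.1) : (J.G c s).F.e = J.fr c s :=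
  Lay.F_e _ (Mark.mem_Ω _ h)

theorem up_eq (hu : M.Up M.c0 c) : up (W := W) c = W.up M.c0 c :=
  funext fun z => (W.up_eq' hu (fun a ha hp => hu.2 a ha hp) z).symm

theorem up_loc (hu : M.Up M.c0 c) (z : (W.Z c).M) :
    IsLocalDiffeomorphAt (W.Z c).I (W.Z M.c0).I ∞ (up (W := W) c) z :=
  up_eq (W := W) hu ▸ (W.up_oe hu).loc z

theorem up_sm (hu : M.Up M.c0 c) : ContMDiff (W.Z c).I (W.Z M.c0).I ∞ (up (W := W) c) :=
  fun z => (up_loc hu z).contMDiffAt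

variable (J c) in
/-- the standing hypotheses -/
structure Hy : Prop where
  ok : J.OK
  nW : W.Nrm
  nΛ : Λ.Nrm
  up : M.Up M.c0 c
  sub : c.1 ⊆ J.m.1
  unc : J.unc c = univ

namespace Hy
variable (H : Hy J c)
include H

theorem B_eq : J.B c = cmB (Job.up c) (J.B M.c0) :=
  up_eq (W := W) H.up ▸ Lns.Nrm.B H.nW H.nΛ H.up fun _ k => H.sub k.1

theorem ok_pb {x : Cfg (W.Z M.c0).M (Option κ) (lam ⊕ lam) r} (k : x.m.OK (W.Z M.c0).I (J.B M.c0)) :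
    (pb (Job.up c) x).m.OK (W.Z c).I (J.B c) := H.B_eq ▸ cmM_ok (up_sm H.up) k

theorem fu_eq {s : A' → ℝ} (hb : J.Θ s ∈ M.Br c.1) (a : Option κ) : J.fu c s a = J.fr c s a :=
  funext fun z => (Met55.ld_bij (up_loc H.up z)).1 ((Met55.pbv_rel (up_loc H.up z) _).trans (by
    have := H.nW.e J.m _ _ H.up (fun _ k => H.sub k.1) (J.Θ s) z a
    rw [Mark.mp_br hb, ← up_eq H.up] at this
    exact this.symm))

/-- the frames converge -/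
theorem vcv {s : α → A' → ℝ} {s₀ : A' → ℝ} (hs : Tendsto s l (𝓝 s₀)) (hb : J.Θ s₀ ∈ M.Br c.1)
    (ho : J.Θ s₀ ∈ M.O c.1) (a : Option κ) :
    VCv l univ (fun i => J.fu c (s i) a) (J.fr c s₀ a) := by
  rw [← H.fu_eq hb]
  refine vcv_of_vJ (X := fun p => Met55.pbv (W.Z c).I (W.Z M.c0).I (Job.up c) ((W.L J.m M.c0).e p a))
    (fun x _ => ?_) ((H.ok.sm.continuous.tendsto _).comp hs)
  have h1 := W.up_mem_Ω H.up (Mark.mem_Ω _ ho x)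
  rw [Mark.mp_br hb, ← up_eq H.up] at h1
  exact (((continuous_id.prodMap (up_sm H.up).continuous).tendsto (J.Θ s₀, x)).eventually
    ((W.isOpen_Ω (c := M.c0)).mem_nhds h1)).mono fun q hq =>
      Met55.VJ.pbv (up_loc H.up _) ((W.L J.m M.c0).sm _ _ hq a)

theorem x0 (k : h) : Job.up c (J.cut c k).x0 = (J.cut M.c0 k).x0 :=
  congrArg (W.φ M.c0) ((W.φ c).left_inv ((W.mem_src c).2 (disjoint_left.1
    (show k ∈ J.unc c from H.unc ▸ trivial) ((H.ok.nb k).2.sub ⟨(0, 0), rfl⟩))))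

/-- pull-back of isomorphisms -/
theorem ci_pb {s : A' → ℝ} {x x' : Cfg (W.Z M.c0).M (Option κ) (lam ⊕ lam) r}
    {w : (W.Z M.c0).M → CL x.m.V x'.m.V} {ξ : Circle} (k : CI (J.fr M.c0 s) x x' w ξ) :
    CI (J.fu c s) (pb (Job.up c) x) (pb (Job.up c) x') (fun z => w (Job.up c z)) ξ :=
  ⟨cm_iso0 (fun z _ => up_sm H.up z) (mapsTo_univ _ _) k.m, fun a z =>
    (congrArg (fun t => t + x'.W a (Job.up c z) ∘L w (Job.up c z) - w (Job.up c z) ∘L x.W a (Job.up c z))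
      (Met55.dv_rel ((up_sm H.up z).mdifferentiableAt (by simp))
      (Met55.pbv_rel (up_loc H.up z) _) (k.m.su _ trivial).md)).trans (k.W a _),
    fun z => k.Φ _, k.z⟩

end Hy

theorem ci_of {y y' : J.Obc c} (k : y.Ok) (k' : y'.Ok) (e : y.s = y'.s) {v ξ} :
    CEq (J.G c y.s).F y.x y'.x univ id (fun x b a => (J.B c).P b a x) (J.B c).l v ξ ↔
      CI (J.fr c y.s) y.x y'.x v ξ := G_e k.2 ▸ ci_iff (Λ.B_ok _ _) k.1 (e ▸ k'.1)

theorem cW {y : J.Obc c} (k : y.Ok) (a : Option κ) : Continuous (y.x.W a) :=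
  ContMDiff.continuous (k.1.conn.cc.sm a)

theorem iso_symm {y y' : J.Obc c} (k : y.Ok) (k' : y'.Ok) (e : Job.Iso y y') :
    ∃ v ξ, CI (J.fr c y'.s) y'.x y.x v ξ ∧ ∀ i ∈ J.unc c, ∃ η : Circle,
      (y.ψ i : L2c _) = LU (csE y.x.m.J η ∘L v (J.cut c i).x0) (y'.ψ i) :=
  let ⟨e1, v, ξ, e2, e3⟩ := e.symm k k'
  ⟨v, ξ, (ci_of k' k e1).1 e2, fun i hi => e3 ⟨i, hi⟩⟩

/-- **WU** -/
theorem Hy.wu (H : Hy J c) : WU J c := by
  intro α 𝒰 y y₀ y₁ ok hb h0 h1 ⟨s0, u, ζ, a0, b0⟩ ⟨s1, u', ζ', a1, b1⟩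
  have es : y₀.s = y₁.s := tendsto_nhds_unique s0 s1
  have k0 := ok.mono fun i k => H.ok_pb k.1.ok
  have w0 := (wl_iff k0 h0.1.ok).1 a0
  have w1 := (wl_iff k0 h1.1.ok).1 a1
  obtain ⟨v, ξ, k1, k2⟩ := WL.uniq (F := (J.G c y₀.s).F.toPre) w0 w1
    (ok.mono fun i k => ⟨H.ok_pb k.1.ok, fun a x => k.1.conn.sk a _⟩) h0.1.ok
    (fun a => by have := H.vcv s0 hb h0.2 a; rwa [← G_e h0.2] at this) h1.1.ok.Jsq h0.1.conn.sk
    h0.1.conn.cc.sm h1.1.conn.cc.sm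
  refine ⟨es, v, ξ, (ci_iff (Λ.B_ok _ _) h0.1 (es ▸ h1.1)).2 k1, fun k => ?_⟩
  obtain ⟨η, e0⟩ := b0 k
  obtain ⟨η', e1⟩ := b1 k
  obtain ⟨θ, hθ⟩ := exists_phase (𝒰 := 𝒰) fun i => η' i * (η i)⁻¹
  refine ⟨θ, tendsto_nhds_unique_of_eventuallyEq e1 (td_LU _ hθ (k2 _) e0) ?_⟩
  filter_upwards [ev_at (P := fun i z => Iso0 _ _ _ {z} (u i)) (w0.m (J.cut c k).x0),
    ev_at (P := fun i z => Iso0 _ _ _ {z} (u' i)) (w1.m (J.cut c k).x0), k0] with i b d o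
  have a := (b.symm (OK.on o _) (OK.on h0.1.ok _)).trans d
  refine Eq.trans ?_ (LU_cs h1.1.ok.Jsq (a.J _ rfl).symm _ _ _ _).symm
  have e : (u' i (J.cut c k).x0 ∘L ad (u i (J.cut c k).x0)) ∘L u i (J.cut c k).x0 =
      u' i (J.cut c k).x0 := by
    rw [ContinuousLinearMap.comp_assoc, (b.iso _ rfl).src, (d.iso _ rfl).idem]
  exact congrArg₂ (fun (t : Circle) T => LU (csE y₁.x.m.J t ∘L T) ((y i).ψ k).1)
    (inv_mul_cancel_right _ _).symm e.symm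

theorem clim_tr {N N' : α → ℕ} {N₀ N₁ : ℕ} {J₀ : En (Fin N₀)} {J₁ : En (Fin N₁)}
    {K : ∀ i, En (Fin (N i))} {u : ∀ i, CL (Eu (Fin (N i))) (Eu (Fin N₀))}
    {w : ∀ i, CL (Eu (Fin (N' i))) (Eu (Fin (N i)))} {v : CL (Eu (Fin N₀)) (Eu (Fin N₁))}
    {ψ : ∀ i, L2c (Fin (N i))} {ψ' : ∀ i, L2c (Fin (N' i))} {ψ₀ : L2c (Fin N₀)} {ψ₁ : L2c (Fin N₁)}
    (h : CLim l J₀ u ψ ψ₀) (h₀ : J₀ * J₀ = -1) (h₁ : J₁ * J₁ = -1) {η : α → Circle}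
    (hw : ∀ᶠ i in l, u i ∘L K i = J₀ ∘L u i ∧ ψ i = LU (csE (K i) (η i) ∘L w i) (ψ' i))
    (hv : v ∘L J₀ = J₁ ∘L v) {θ : Circle} (e : ψ₁ = LU (csE J₁ θ ∘L v) ψ₀) :
    CLim l J₁ (fun i => v ∘L u i ∘L w i) ψ' ψ₁ := by
  obtain ⟨ξ, k⟩ := h
  refine ⟨fun i => θ * (ξ i * η i), e ▸ (td_LU J₁ (tendsto_const_nhds (x := θ))
    (tendsto_const_nhds (x := v)) k).congr' (hw.mono fun i o => ?_)⟩
  simp only [o.2]
  exact (congrArg _ (LU_cs h₀ o.1 _ _ _ _)).trans (LU_cs h₁ hv _ _ _ _)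

theorem WL.congr_e {e e' : α → Option κ → Met55.VF (W.Z c).I (W.Z c).M}
    {x : α → Cfg (W.Z c).M (Option κ) (lam ⊕ lam) r} {x₀ u ζ} (h : WL l e x x₀ u ζ)
    (k : ∀ᶠ i in l, e i = e' i) : WL l e' x x₀ u ζ :=
  ⟨h.m, fun a z => (h.A a z).congr' ((k.prod_inl _).mono fun p k => by simp only [k]), h.Φ, h.z⟩

/-- **WC** -/
theorem Hy.wc (H : Hy J c) : WC J c := by
  intro α l y y' y₀ y₁ ok hb h0 h1 ⟨es, v, ξ, e1, e2⟩ ⟨s0, u, ζ, a0, b0⟩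
  have ex : ∀ i, ∃ (w : _ → CL (y' i).x.m.V (y i).x.m.V) (θ : Circle) (η : h → Circle),
      (y i).Ok ∧ (y' i).Ok ∧ Job.Iso (y i) (y' i) → CI (J.fr M.c0 (y' i).s) (y' i).x (y i).x w θ ∧
        ∀ k, ((y i).ψ k : L2c _) =
          LU (csE (y i).x.m.J (η k) ∘L w (J.cut M.c0 k).x0) ((y' i).ψ k) := fun i => by
    by_cases k : (y i).Ok ∧ (y' i).Ok ∧ Job.Iso (y i) (y' i)
    · obtain ⟨w, θ, k1, k2⟩ := iso_symm k.1 k.2.1 k.2.2
      choose η hη using fun j => k2 j (show Disjoint _ _ by simp [Sys.cores, Mark.c0])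
      exact ⟨w, θ, η, fun _ => ⟨k1, hη⟩⟩
    · exact ⟨0, 1, 1, fun k' => (k k').elim⟩
  choose w θ η hw using ex
  have e0 : ∀ᶠ i in l, (y i).s = (y' i).s := ok.mono fun i k => k.2.2.1
  have s1 := s0.congr' e0
  have w0 := ((wl_iff (ok.mono fun i k => H.ok_pb k.1.1.ok) h0.1.ok).1 a0).congr_e
    (e' := fun i => J.fu c (y' i).s) (e0.mono fun i k => congrArg _ k)
  have e3 := (ci_of h0 h1 es).1 e1
  have w1 := (w0.pre (ok.mono fun i k => H.ci_pb (hw i k).1) h0.1.ok.Jsq).post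
    (H.vcv s1 hb h0.2) e3 h1.1.ok.Jsq (cW h0) (cW h1)
  refine ⟨es ▸ s1, _, _, (wl_iff (ok.mono fun i k => H.ok_pb k.2.1.1.ok) h1.1.ok).2 w1, fun k => ?_⟩
  obtain ⟨η1, e5⟩ := e2 ⟨k, H.unc ▸ trivial⟩
  refine clim_tr (K := fun i => (y i).x.m.J) (η := fun i => η i k) (b0 k) h0.1.ok.Jsq h1.1.ok.Jsq ?_
    (e3.m.J _ trivial).symm e5
  filter_upwards [ok, ev_at (P := fun i z => Iso0 _ _ _ {z} (u i)) (w0.m (J.cut c k).x0)] with i o b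
  exact ⟨(b.J _ rfl).symm, ((hw i o).2 k).trans (congrArg
    (fun z => LU (csE (y i).x.m.J (η i k) ∘L w i z) ((y' i).ψ k).1) (H.x0 k).symm)⟩

/-- **WI** -/
theorem Hy.wi (H : Hy J c) : WI J c := by
  intro α β l l' y y₀ v hH h0 h1 h2 S D
  have := Manifold.locallyCompact_of_finiteDimensional (M := (W.Z c).M) (W.Z c).I
  obtain ⟨u, ζ, a0, b0⟩ := S.lim
  choose w ξ a1 b1 using fun i => (D i).lim
  have w0 := (wl_iff (.of_forall fun i => (h1 i).1.1.ok) h0.1.ok).1 (ulim_wlim a0)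
  have w1 := fun i => (wl_iff ((h2 i).mono fun j k => H.ok_pb k.1.ok) (h1 i).1.1.ok).1 (a1 i)
  have w2 := w0.iter w1 (fun i => H.vcv (D i).s (h1 i).2 (h1 i).1.2) h0.1.ok.Jsq
    (cW h0) fun i => cW (h1 i).1
  refine ⟨td_curry0 (f := fun i j => (v i j).s) S.s (.of_forall fun i => (D i).s), _, _,
    (wl_iff (eventually_curry_iff.2 (.of_forall fun i => (h2 i).mono fun j k => H.ok_pb k.1.ok))
      h0.1.ok).2 w2, fun k => ?_⟩
  obtain ⟨η, e0⟩ := b0 k (hH ▸ trivial)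
  choose θ e1 using fun i => b1 i k
  refine ⟨fun p => η p.1 * θ p.1 p.2, td_curry0 (f := fun i j => LU (csE y₀.x.m.J (η i * θ i j : Circle)
    ∘L u i (J.cut c k).x0 ∘L w i j (J.cut c k).x0) ((v i j).ψ k).1) e0 ?_⟩
  filter_upwards [ev_at (P := fun i z => Iso0 _ _ _ {z} (u i)) (w0.m (J.cut c k).x0)] with i b
  exact (td_LU y₀.x.m.J (tendsto_const_nhds (x := η i)) tendsto_const_nhds (e1 i)).congr fun j =>
    LU_cs h0.1.ok.Jsq (b.J _ rfl).symm _ _ _ _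

end Crest.Agent.X212.Glw30
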