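import Crest.Agent.X212.Glw30.Ode
import Crest.Agent.X212.Gl67.Job

/-!
# Row 212, GL-W (helper30), part 2: calculus of weak limits
-/

set_option autoImplicit false
set_option linter.unusedSectionVars false
noncomputable section
open scoped Manifold ContDiff Topology InnerProductSpace
open Set Function Filter

namespace Crest.Agent.X212.Glw30
open An Pj41 Cmp73 Sob92 Gj67
open Loc66 (VCv)
open Met55 (VF)
open Eqv71 (cs_mul map_cs Ad0)
open Cnt93 (LU LU_LU)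

variable {E : Type} [NormedAddCommGroup E] [NormedSpace ℝ E] [FiniteDimensional ℝ E]
  [MeasurableSpace E] [BorelSpace E]
  {HM : Type} [TopologicalSpace HM] {I : ModelWithCorners ℝ E HM} [I.Boundaryless]
  {M : Type} [TopologicalSpace M] [ChartedSpace HM M] [IsManifold I ∞ M]
  [MeasurableSpace M] {ι lam : Type} [Fintype ι] [Fintype lam] {α β : Type} {l : Filter α}
  {l' : Filter β} {x : M}

/-! ### the defect of a gauge -/

section df
variable {V V' V'' : Type} [NormedAddCommGroup V] [InnerProductSpace ℝ V] [FiniteDimensional ℝ V]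
  [NormedAddCommGroup V'] [InnerProductSpace ℝ V'] [FiniteDimensional ℝ V']
  [NormedAddCommGroup V''] [InnerProductSpace ℝ V''] [FiniteDimensional ℝ V'']
  {e : VF I M} {W : M → CL V V} {W' : M → CL V' V'} {W'' : M → CL V'' V''} {u : M → CL V V'}
  {p : CL V V} {q : CL V' V'} {s : CL V'' V''}

/-- the defect of parallelism -/
def df (e : VF I M) (W : M → CL V V) (W' : M → CL V' V') (u : M → CL V V') (x : M) : CL V' V' :=
  (dv I e u x + W' x ∘L u x - u x ∘L W x) ∘L ad (u x)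

theorem df_comp {U : M → CL V' V''} (hu : FSm I u x) (hU : FSm I U x) (i : CIso (u x) p q)
    (i' : CIso (U x) q s) : df e W W'' (fun y => U y ∘L u y) x =
      df e W' W'' U x + U x ∘L df e W W' u x ∘L ad (U x) := ContinuousLinearMap.ext fun v => by
  have h1 : u x (ad (u x) (ad (U x) v)) = ad (U x) v :=
    (DFunLike.congr_fun i.tgt _).trans (DFunLike.congr_fun i'.symm.left v)
  simp only [df, dv_cc hU hu, ad_comp, ContinuousLinearMap.comp_apply, add_apply, sub_apply, map_add,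
    map_sub, h1]
  abel

theorem df_ode {u' : M → CL V V''} (hu : FSm I u x) (hu' : FSm I u' x) (i : CIso (u x) p q)
    (i' : CIso (u' x) p s) (k : ad (W x) = -W x) (k' : ad (W' x) = -W' x) :
    dv I e (fun y => u' y ∘L ad (u y)) x - ((u' x ∘L ad (u x)) ∘L W' x - W'' x ∘L u' x ∘L ad (u x)) =
      df e W W'' u' x ∘L u' x ∘L ad (u x) + (u' x ∘L ad (u x)) ∘L ad (df e W W' u x) :=
  ContinuousLinearMap.ext fun v => by
  have h1 : ∀ v, ad (u' x) (u' x (ad (u x) v)) = ad (u x) v := fun v =>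
    (DFunLike.congr_fun i'.src _).trans (DFunLike.congr_fun i.symm.left v)
  have h2 : ∀ v, u' x (ad (u x) (u x v)) = u' x v := fun v =>
    (congrArg (u' x) (DFunLike.congr_fun i.src v)).trans (DFunLike.congr_fun i'.idem v)
  simp only [df, dv_cc hu' hu.ad, dv_ad hu, ad_comp, ad_sub, ad_add, ad_ad, k, k',
    ContinuousLinearMap.comp_apply, add_apply, sub_apply, map_add, map_sub, h1, h2, neg_apply, map_neg]
  abel

theorem norm_iso {a : CL V V'} (i : CIso a p q) : ‖a‖ ≤ 1 := by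
  refine a.opNorm_le_bound zero_le_one fun v => ?_
  have h0 : ‖p v‖ ^ 2 ≤ ‖p v‖ * ‖v‖ := by
    rw [← real_inner_self_eq_norm_sq, ← i.prj_src.symm, i.prj_src.app]
    exact real_inner_le_norm _ _
  have h1 : ‖a v‖ ^ 2 ≤ ‖p v‖ * ‖v‖ := by
    rw [← real_inner_self_eq_norm_sq, i.inner]
    exact real_inner_le_norm _ _
  have h2 : ‖p v‖ ≤ ‖v‖ := by nlinarith [norm_nonneg (p v), norm_nonneg v]
  nlinarith [norm_nonneg (a v), norm_nonneg (p v), norm_nonneg v]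

variable {γ : Type} {L : Filter γ}

theorem td_cc {X Y Z : Type} [NormedAddCommGroup X] [NormedSpace ℝ X] [NormedAddCommGroup Y]
    [NormedSpace ℝ Y] [NormedAddCommGroup Z] [NormedSpace ℝ Z] {a : γ → CL Y Z} {b : γ → CL X Y}
    {a₀ : CL Y Z} {b₀ : CL X Y} (h : Tendsto a L (𝓝 a₀)) (h' : Tendsto b L (𝓝 b₀)) :
    Tendsto (fun i => a i ∘L b i) L (𝓝 (a₀ ∘L b₀)) :=
  ((ContinuousLinearMap.compL ℝ X Y Z).continuous₂.tendsto (a₀, b₀)).comp (h.prodMk_nhds h')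

theorem td_app {X Y : Type} [NormedAddCommGroup X] [NormedSpace ℝ X] [NormedAddCommGroup Y]
    [NormedSpace ℝ Y] {a : γ → CL X Y} {b : γ → X} {a₀ : CL X Y} {b₀ : X}
    (h : Tendsto a L (𝓝 a₀)) (h' : Tendsto b L (𝓝 b₀)) :
    Tendsto (fun i => a i (b i)) L (𝓝 (a₀ b₀)) :=
  (isBoundedBilinearMap_apply.continuous.tendsto (a₀, b₀)).comp (h.prodMk_nhds h')

theorem td_ad {a : γ → CL V V'} {a₀ : CL V V'} (h : Tendsto a L (𝓝 a₀)) :
    Tendsto (fun i => ad (a i)) L (𝓝 (ad a₀)) := (adL.continuous.tendsto a₀).comp h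

theorem td_small {X Y Z : Type} [NormedAddCommGroup X] [NormedSpace ℝ X] [NormedAddCommGroup Y]
    [NormedSpace ℝ Y] [NormedAddCommGroup Z] [NormedSpace ℝ Z] {a : γ → CL Y Z} {b : γ → CL X Y}
    (h : ∀ᶠ i in L, ‖a i‖ ≤ 1) (h' : Tendsto b L (𝓝 0)) : Tendsto (fun i => a i ∘L b i) L (𝓝 0) :=
  squeeze_zero_norm' (h.mono fun i k => ((a i).opNorm_comp_le _).trans
    (mul_le_of_le_one_left (norm_nonneg _) k)) (tendsto_zero_iff_norm_tendsto_zero.1 h')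

theorem td_small' {X Y Z : Type} [NormedAddCommGroup X] [NormedSpace ℝ X] [NormedAddCommGroup Y]
    [NormedSpace ℝ Y] [NormedAddCommGroup Z] [NormedSpace ℝ Z] {a : γ → CL Y Z} {b : γ → CL X Y}
    (h : Tendsto a L (𝓝 0)) (h' : ∀ᶠ i in L, ‖b i‖ ≤ 1) : Tendsto (fun i => a i ∘L b i) L (𝓝 0) :=
  squeeze_zero_norm' (h'.mono fun i k => ((a i).opNorm_comp_le _).trans
    (mul_le_of_le_one_right (norm_nonneg _) k)) (tendsto_zero_iff_norm_tendsto_zero.1 h)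

theorem td_cs {κ : Type} [Fintype κ] (J : En κ) {a : γ → Circle} {b : γ → Eu κ} {a₀ : Circle}
    {b₀ : Eu κ} (h : Tendsto a L (𝓝 a₀)) (h' : Tendsto b L (𝓝 b₀)) :
    Tendsto (fun i => cs J (a i) (b i)) L (𝓝 (cs J a₀ b₀)) :=
  have k := (continuous_subtype_val.tendsto a₀).comp h
  (((Complex.continuous_re.tendsto _).comp k).smul h').add
    (((Complex.continuous_im.tendsto _).comp k).smul ((J.continuous.tendsto _).comp h'))

theorem td_LU {κ κ' : Type} [Fintype κ] [Fintype κ'] (J : En κ') {η : γ → Circle} {η₀ : Circle}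
    {a : γ → CL (Eu κ) (Eu κ')} {b : γ → L2c κ} {a₀ : CL (Eu κ) (Eu κ')} {b₀ : L2c κ}
    (k : Tendsto η L (𝓝 η₀)) (h : Tendsto a L (𝓝 a₀)) (h' : Tendsto b L (𝓝 b₀)) :
    Tendsto (fun i => LU (csE J (η i) ∘L a i) (b i)) L (𝓝 (LU (csE J η₀ ∘L a₀) b₀)) := by
  have k := (continuous_subtype_val.tendsto η₀).comp k
  have k1 : Tendsto (fun i => csE J (η i)) L (𝓝 (csE J η₀)) :=
    (((Complex.continuous_re.tendsto _).comp k).smul_const _).add
      (((Complex.continuous_im.tendsto _).comp k).smul_const _)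
  have k2 := td_app ((((ContinuousLinearMap.id ℝ (CL (Eu κ) (Eu κ'))).compLpL₂ 2
    μc).continuous.tendsto _).comp (td_cc k1 h)) h'
  exact k2

theorem lim_itw [T2Space M] [BorelSpace M] [SecondCountableTopology M] {𝒰 : Ultrafilter α}
    {F : Pre I M ι} {e : α → ι → VF I M} (he : ∀ a, VCv 𝒰 univ (fun i => e i a) (F.e a))
    {f : α → M → CL V V'} {A : ι → M → CL V V} {A' : ι → M → CL V' V'} (hA : ∀ a, Sm I (A a))
    (hA' : ∀ a, Sm I (A' a))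
    (hf : ∀ x, ∀ᶠ q : α × M in (𝒰 : Filter α) ×ˢ 𝓝 x, FSm I (f q.1) q.2 ∧ ‖f q.1 q.2‖ ≤ 1)
    (hd : ∀ a x, Tendsto (fun q : α × M => dv I (e q.1 a) (f q.1) q.2 -
      (f q.1 q.2 ∘L A a q.2 - A' a q.2 ∘L f q.1 q.2)) ((𝒰 : Filter α) ×ˢ 𝓝 x) (𝓝 0)) :
    ∃ g, Sm I g ∧ (∀ a x, dv I (F.e a) g x + A' a x ∘L g x - g x ∘L A a x = 0) ∧
      ∀ x, Tendsto (fun i => f i x) 𝒰 (𝓝 (g x)) := by
  obtain ⟨C, hC⟩ : ∃ C : CL (CL V V) (CL (CL V V') (CL V V')), ∀ a b, C a b = b ∘L a :=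
    ⟨(ContinuousLinearMap.compL ℝ V V V').flip, fun _ _ => rfl⟩
  obtain ⟨C', hC'⟩ : ∃ C : CL (CL V' V') (CL (CL V V') (CL V V')), ∀ a b, C a b = a ∘L b :=
    ⟨ContinuousLinearMap.compL ℝ V V' V', fun _ _ => rfl⟩
  have s : ∀ a, Sm I fun x => C (A a x) - C' (A' a x) := fun a =>
    (C.contDiff.comp_contMDiff (hA a)).sub (C'.contDiff.comp_contMDiff (hA' a))
  obtain ⟨v, v1, v2, v3⟩ := lim_ode he s hf fun a x => by
    simpa only [sub_apply, hC, hC'] using hd a x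
  refine ⟨v, v1, fun a x => ?_, fun x => td_at (v3 x)⟩
  rw [← Pre.D_def, v2, sub_apply, hC, hC']
  abel

theorem exists_phase {𝒰 : Ultrafilter γ} (η : γ → Circle) : ∃ ξ, Tendsto η 𝒰 (𝓝 ξ) :=
  let ⟨ξ, _, h⟩ := isCompact_univ.ultrafilter_le_nhds (𝒰.map η) (le_principal_iff.2 univ_mem)
  ⟨ξ, h⟩

end df

/-! ### weak limits, pointwise -/

variable {r : ℕ} {B : Base M ι lam} {e : α → ι → VF I M} {e₀ : ι → VF I M}
  {c c' : α → Cfg M ι lam r} {c₀ c₁ : Cfg M ι lam r} {u : ∀ i, M → CL (c i).m.V c₀.m.V}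
  {ζ : α → Circle}

variable (l e c c₀ u ζ) in
/-- `WLim` with pointwise isomorphisms -/
structure WL : Prop where
  m : ∀ x, ∀ᶠ p : α × M in l ×ˢ 𝓝 x, Iso0 I (c p.1).m c₀.m {p.2} (u p.1)
  A : ∀ a x, Tendsto (fun p : α × M => df (e p.1 a) ((c p.1).W a) (c₀.W a) (u p.1) p.2) (l ×ˢ 𝓝 x)
    (𝓝 0)
  Φ : ∀ x, Tendsto (fun p : α × M => cs c₀.m.J (ζ p.1) (u p.1 p.2 ((c p.1).Φ p.2))) (l ×ˢ 𝓝 x)
    (𝓝 (c₀.Φ x))
  z : Tendsto (fun i => ((ζ i : ℂ) ^ 2) • (c i).z) l (𝓝 c₀.z)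

theorem iso_pts {m m' : Md M ι lam} {O : Set M} {v : M → CL m.V m'.V}
    (h : ∀ x ∈ O, Iso0 I m m' {x} v) : Iso0 I m m' O v :=
  ⟨fun x k => (h x k).su x rfl, fun x k => (h x k).iso x rfl, fun x k => (h x k).J x rfl,
    fun x k => (h x k).ρ x rfl, fun x k => (h x k).j x rfl⟩

theorem wl_iff (h : ∀ᶠ i in l, (c i).m.OK I B) (h₀ : c₀.m.OK I B) :
    WLim I B l e c c₀ u ζ ↔ WL l e c c₀ u ζ := by
  refine ⟨fun k => ⟨fun x => ?_, fun a x => by simpa only [df, ad_trn] using k.A a x, k.Φ, k.z⟩,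
    fun k => ⟨fun x => ?_, fun a x => by simpa only [df, ad_trn] using k.A a x, k.Φ, k.z⟩⟩
  · obtain ⟨N, h1, h2, h3⟩ := k.m x
    exact ((h3.and h).prod_mk (h1.mem_nhds h2)).mono fun p hp =>
      (Iso0.of_mEq h1 hp.1.1 (OK.on hp.1.2 _) (OK.on h₀ _)).mono (singleton_subset_iff.2 hp.2)
  · obtain ⟨pa, ha, pb, hb, H⟩ := eventually_prod_iff.1 (k.m x)
    exact ⟨interior {y | pb y}, isOpen_interior, mem_interior_iff_mem_nhds.2 hb,
      (ha.and h).mono fun i hi => (iso_pts fun y hy => H hi.1 (interior_subset hy)).mEq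
        (OK.on hi.2 _) (OK.on h₀ _)⟩

theorem ulim_wlim (h : ULim I B l univ e c c₀ u ζ) : WLim I B l e c c₀ u ζ :=
  ⟨fun x => h.m x trivial, fun a _ => (h.A a).tendsto trivial, fun _ => h.Φ.tendsto trivial, h.z⟩

namespace WL
variable (h : WL l e c c₀ u ζ) {U : M → CL c₀.m.V c₁.m.V}
  (hU : ∀ᶠ y in 𝓝 x, Iso0 I c₀.m c₁.m {y} U)
include h hU

theorem post_m : ∀ᶠ p : α × M in l ×ˢ 𝓝 x,
    Iso0 I (c p.1).m c₁.m {p.2} fun y => U y ∘L u p.1 y :=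
  ((h.m x).and (tendsto_snd.eventually hU)).mono fun _ k => k.1.trans k.2

theorem post_A {a : ι} (f : VCv l univ (fun i => e i a) (e₀ a)) (h0 : ContinuousAt (c₀.W a) x)
    (h1 : ContinuousAt (c₁.W a) x) : Tendsto (fun p : α × M =>
      df (e p.1 a) ((c p.1).W a) (c₁.W a) (fun y => U y ∘L u p.1 y) p.2) (l ×ˢ 𝓝 x)
      (𝓝 (df (e₀ a) (c₀.W a) (c₁.W a) U x)) := by
  have k0 := (hU.self_of_nhds.su x rfl).continuousAt.tendsto.comp (tendsto_snd (f := l))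
  have k1 := td_cc (((dv_td f (hU.mono fun y k => k.su y rfl)).add
    (td_cc (h1.tendsto.comp tendsto_snd) k0)).sub (td_cc k0 (h0.tendsto.comp tendsto_snd))) (td_ad k0)
  have k2 := k1.add (td_cc k0 (td_cc (h.A a x) (td_ad k0)))
  rw [ContinuousLinearMap.zero_comp, ContinuousLinearMap.comp_zero, add_zero] at k2
  refine k2.congr' (((h.m x).and (tendsto_snd.eventually hU)).mono fun p k => ?_)
  exact (df_comp (k.1.su _ rfl) (k.2.su _ rfl) (k.1.iso _ rfl) (k.2.iso _ rfl)).symm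

theorem post_Φ (hJ : c₁.m.J * c₁.m.J = -1) (ξ : Circle) : Tendsto (fun p : α × M =>
      cs c₁.m.J (ξ * ζ p.1 : Circle) ((U p.2 ∘L u p.1 p.2) ((c p.1).Φ p.2))) (l ×ˢ 𝓝 x)
      (𝓝 (cs c₁.m.J ξ (U x (c₀.Φ x)))) := by
  have k0 := (hU.self_of_nhds.su x rfl).continuousAt.tendsto.comp (tendsto_snd (f := l))
  refine (td_cs c₁.m.J tendsto_const_nhds (td_app k0 (h.Φ x))).congr'
    ((tendsto_snd.eventually hU).mono fun p k => ?_)
  simp only [comp_apply, ContinuousLinearMap.comp_apply]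
  rw [map_cs (k.J _ rfl).symm, cs_mul hJ, Circle.coe_mul]

omit hU in
theorem post_z (ξ : Circle) : Tendsto (fun i => (((ξ * ζ i : Circle) : ℂ) ^ 2) • (c i).z) l
    (𝓝 (((ξ : ℂ) ^ 2) • c₀.z)) := by
  simpa only [Circle.coe_mul, mul_pow, mul_smul] using h.z.const_smul ((ξ : ℂ) ^ 2)

end WL

variable (e₀ c₀ c₁) in
/-- isomorphisms -/
structure CI (v : M → CL c₀.m.V c₁.m.V) (ξ : Circle) : Prop where
  m : Iso0 I c₀.m c₁.m univ v
  W : ∀ a x, dv I (e₀ a) v x + c₁.W a x ∘L v x - v x ∘L c₀.W a x = 0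
  Φ : ∀ x, c₁.Φ x = cs c₁.m.J ξ (v x (c₀.Φ x))
  z : c₁.z = ((ξ : ℂ) ^ 2) • c₀.z

theorem CI.pt {v : M → CL c₀.m.V c₁.m.V} {ξ : Circle} (h : CI e₀ c₀ c₁ v ξ) (x : M) :
    Iso0 I c₀.m c₁.m {x} v := h.m.mono (subset_univ _)

theorem CI.df {v : M → CL c₀.m.V c₁.m.V} {ξ : Circle} (h : CI e₀ c₀ c₁ v ξ) (a : ι) (x : M) :
    df (e₀ a) (c₀.W a) (c₁.W a) v x = 0 := by rw [Glw30.df, h.W, ContinuousLinearMap.zero_comp]

theorem ci_iff {G : Geo I M ι lam} (hB : B.OK I) (h₀ : Ad0 c₀ B G) (h₁ : Ad0 c₁ B G)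
    {v : M → CL c₀.m.V c₁.m.V} {ξ : Circle} :
    CEq G.F c₀ c₁ univ id (fun x b a => B.P b a x) B.l v ξ ↔ CI G.F.e c₀ c₁ v ξ :=
  have k := par0_iff (F := G.F) (W := c₀.W) (u := v) (O := univ)
    fun a x hx => (IsConn.on h₁.conn univ).proj' hB a x hx
  ⟨fun h => ⟨.of_mEq isOpen_univ h.m (OK.on h₀.ok _) (OK.on h₁.ok _),
      fun a x => k.2 h.W x trivial a, fun x => h.Φ x trivial, h.z⟩,
    fun h => ⟨h.m.mEq (OK.on h₀.ok _) (OK.on h₁.ok _), k.1 fun x _ a => h.W a x,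
      fun x _ => h.Φ x, h.z⟩⟩

/-- isomorphic limits -/
theorem WL.post (h : WL l e c c₀ u ζ) (f : ∀ a, VCv l univ (fun i => e i a) (e₀ a))
    {v : M → CL c₀.m.V c₁.m.V} {ξ : Circle} (k : CI e₀ c₀ c₁ v ξ) (hJ : c₁.m.J * c₁.m.J = -1)
    (h0 : ∀ a, Continuous (c₀.W a)) (h1 : ∀ a, Continuous (c₁.W a)) :
    WL l e c c₁ (fun i y => v y ∘L u i y) fun i => ξ * ζ i :=
  ⟨fun _ => h.post_m (.of_forall k.pt), fun a x => k.df a x ▸
    h.post_A (.of_forall k.pt) (f a) (h0 a).continuousAt (h1 a).continuousAt,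
    fun x => k.Φ x ▸ h.post_Φ (.of_forall k.pt) hJ ξ, k.z ▸ h.post_z ξ⟩

/-- isomorphic families -/
theorem WL.pre (h : WL l e c c₀ u ζ) {w : ∀ i, M → CL (c' i).m.V (c i).m.V} {ξ : α → Circle}
    (k : ∀ᶠ i in l, CI (e i) (c' i) (c i) (w i) (ξ i)) (hJ : c₀.m.J * c₀.m.J = -1) :
    WL l e c' c₀ (fun i y => u i y ∘L w i y) fun i => ζ i * ξ i := by
  have k1 := fun x => (h.m x).and (k.prod_inl (𝓝 x))
  refine ⟨fun x => (k1 x).mono fun p k => (k.2.pt _).trans k.1, fun a x => (h.A a x).congr'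
    ((k1 x).mono fun p k => ?_), fun x => (h.Φ x).congr' ((k1 x).mono fun p k => ?_),
    h.z.congr' (k.mono fun i k => ?_)⟩
  · simp only
    rw [df_comp (W' := (c p.1).W a) (k.2.m.su _ trivial) (k.1.su _ rfl) (k.2.m.iso _ trivial)
      (k.1.iso _ rfl), k.2.df, ContinuousLinearMap.zero_comp, ContinuousLinearMap.comp_zero, add_zero]
  · simp only [ContinuousLinearMap.comp_apply]
    rw [k.2.Φ, map_cs (k.1.J _ rfl).symm, cs_mul hJ, Circle.coe_mul]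
  · simp only [k.z, Circle.coe_mul, mul_pow, mul_smul]

/-- iterated limits -/
theorem WL.iter [LocallyCompactSpace M] (h : WL l e c c₀ u ζ) {e' : α → β → ι → VF I M}
    {v : α → β → Cfg M ι lam r} {w : ∀ i j, M → CL (v i j).m.V (c i).m.V} {ξ : α → β → Circle}
    (k : ∀ i, WL l' (e' i) (v i) (c i) (w i) (ξ i)) (f : ∀ i a, VCv l' univ (fun j => e' i j a) (e i a))
    (hJ : c₀.m.J * c₀.m.J = -1) (h0 : ∀ a, Continuous (c₀.W a)) (h1 : ∀ i a, Continuous ((c i).W a)) :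
    WL (l.curry l') (fun p : α × β => e' p.1 p.2) (fun p => v p.1 p.2) c₀
      (fun p y => u p.1 y ∘L w p.1 p.2 y) fun p => ζ p.1 * ξ p.1 p.2 := by
  have k1 := fun x => ev_ev (P := fun i y => Iso0 I (c i).m c₀.m {y} (u i)) (h.m x)
  exact ⟨fun x => ev_curry (P := fun i j z => Iso0 I (v i j).m c₀.m {z} fun y => u i y ∘L w i j y)
      ((k1 x).mono fun q hq => (k q.1).post_m hq),
    fun a x => td_curry (f := fun i j z => df (e' i j a) ((v i j).W a) (c₀.W a)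
      (fun y => u i y ∘L w i j y) z) (g := fun i z => df (e i a) ((c i).W a) (c₀.W a) (u i) z) (h.A a x)
      ((k1 x).mono fun q hq =>
        (k q.1).post_A hq (f _ a) (h1 _ a).continuousAt (h0 a).continuousAt),
    fun x => td_curry (f := fun i j z => cs c₀.m.J (ζ i * ξ i j : Circle)
      ((u i z ∘L w i j z) ((v i j).Φ z))) (g := fun i z => cs c₀.m.J (ζ i) (u i z ((c i).Φ z))) (h.Φ x)
      ((k1 x).mono fun q hq => (k q.1).post_Φ hq hJ _),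
    td_curry0 (f := fun i j => (((ζ i * ξ i j : Circle) : ℂ) ^ 2) • (v i j).z) h.z
      (.of_forall fun i => (k i).post_z _)⟩

theorem iso_lim [l.NeBot] {m m' : Md M ι lam} {w : α → M → CL m.V m'.V} {v : M → CL m.V m'.V}
    (h : ∀ᶠ i in l, Iso0 I m m' {x} (w i)) (s : FSm I v x)
    (k : Tendsto (fun i => w i x) l (𝓝 (v x))) : Iso0 I m m' {x} v := by
  have cn : ∀ {G : Type} [TopologicalSpace G] (a : G), Tendsto (fun _ : α => a) l (𝓝 a) :=
    fun _ => tendsto_const_nhds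
  have i2 : ∀ {T : CL m.V m.V} {T' : CL m'.V m'.V}, (∀ᶠ i in l, T' ∘L w i x = w i x ∘L T) →
      T' ∘L v x = v x ∘L T := fun {T T'} =>
    tendsto_nhds_unique_of_eventuallyEq (td_cc (cn T') k) (td_cc k (cn T))
  have i1 : CIso (v x) (m.p x) (m'.p x) :=
    ⟨tendsto_nhds_unique_of_eventuallyEq (td_cc (td_ad k) k) (cn _)
        (h.mono fun _ k => (k.iso _ rfl).src),
      tendsto_nhds_unique_of_eventuallyEq (td_cc k (td_ad k)) (cn _)
        (h.mono fun _ k => (k.iso _ rfl).tgt),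
      tendsto_nhds_unique_of_eventuallyEq (td_cc k (cn _)) k (h.mono fun _ k => (k.iso _ rfl).idem)⟩
  refine ⟨?_, ?_, ?_, ?_, ?_⟩ <;> rintro _ rfl
  exacts [s, i1, i2 (h.mono fun _ k => k.J _ rfl), fun b => i2 (h.mono fun _ k => k.ρ _ rfl b),
    fun b => i2 (h.mono fun _ k => k.j _ rfl b)]

section uq
variable [T2Space M] [BorelSpace M] [SecondCountableTopology M] {𝒰 : Ultrafilter α}
  {F : Pre I M ι} {u' : ∀ i, M → CL (c i).m.V c₁.m.V} {ζ' : α → Circle}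
  (h : WL 𝒰 e c c₀ u ζ) (h' : WL 𝒰 e c c₁ u' ζ')
  (ok : ∀ᶠ i in (𝒰 : Filter α), (c i).m.OK I B ∧ ∀ a x, Skw ((c i).W a x)) (ok₀ : c₀.m.OK I B)
include h h' ok ok₀

theorem uq_m (x : M) : ∀ᶠ p : α × M in (𝒰 : Filter α) ×ˢ 𝓝 x,
    Iso0 I c₀.m c₁.m {p.2} fun y => u' p.1 y ∘L ad (u p.1 y) :=
  (((h.m x).and (h'.m x)).and (ok.prod_inl _)).mono fun _ k =>
    (k.1.1.symm (OK.on k.2.1 _) (OK.on ok₀ _)).trans k.1.2

theorem uq_A (s₀ : ∀ a x, Skw (c₀.W a x)) (a : ι) (x : M) :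
    Tendsto (fun p : α × M => dv I (e p.1 a) (fun y => u' p.1 y ∘L ad (u p.1 y)) p.2 -
      ((u' p.1 p.2 ∘L ad (u p.1 p.2)) ∘L c₀.W a p.2 - c₁.W a p.2 ∘L u' p.1 p.2 ∘L ad (u p.1 p.2)))
      ((𝒰 : Filter α) ×ˢ 𝓝 x) (𝓝 0) := by
  have k2 := (uq_m h h' ok ok₀ x).mono fun p k => norm_iso (k.iso _ rfl)
  have k4 := td_ad (h.A a x)
  rw [ad_zero] at k4
  have k3 := (td_small' (h'.A a x) k2).add (td_small k2 k4)
  rw [add_zero] at k3
  refine k3.congr' ((((h.m x).and (h'.m x)).and (ok.prod_inl _)).mono fun p k => ?_)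
  exact (df_ode (k.1.1.su _ rfl) (k.1.2.su _ rfl) (k.1.1.iso _ rfl) (k.1.2.iso _ rfl)
    (ad_skew.2 (k.2.2 a _)) (ad_skew.2 (s₀ a _))).symm

/-- uniqueness -/
theorem WL.uniq (f : ∀ a, VCv 𝒰 univ (fun i => e i a) (F.e a)) (hJ : c₁.m.J * c₁.m.J = -1)
    (s₀ : ∀ a x, Skw (c₀.W a x)) (h0 : ∀ a, Sm I (c₀.W a)) (h1 : ∀ a, Sm I (c₁.W a)) :
    ∃ v ξ, CI F.e c₀ c₁ v ξ ∧ ∀ x, Tendsto (fun i => u' i x ∘L ad (u i x)) 𝒰 (𝓝 (v x)) := by
  have k1 := uq_m h h' ok ok₀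
  obtain ⟨v, v1, v2, v4⟩ := lim_itw f (f := fun i y => u' i y ∘L ad (u i y)) h0 h1
    (fun x => (k1 x).mono fun p k => ⟨k.su _ rfl, norm_iso (k.iso _ rfl)⟩) (uq_A h h' ok ok₀ s₀)
  have k3 := fun x => ev_at (P := fun i z => Iso0 I c₀.m c₁.m {z} fun y => u' i y ∘L ad (u i y)) (k1 x)
  obtain ⟨ξ, hξ⟩ := exists_phase (𝒰 := 𝒰) fun i => ζ' i * (ζ i)⁻¹
  refine ⟨v, ξ, ⟨iso_pts fun x _ => iso_lim (k3 x) (v1 x) (v4 x), v2, fun x => ?_, ?_⟩, v4⟩
  · refine tendsto_nhds_unique_of_eventuallyEq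
      (td_at (f := fun i y => cs c₁.m.J (ζ' i) (u' i y ((c i).Φ y))) (h'.Φ x)) (td_cs _ hξ
      (td_app (v4 x) (td_at (f := fun i y => cs c₀.m.J (ζ i) (u i y ((c i).Φ y))) (h.Φ x)))) ?_
    filter_upwards [k3 x, ev_at (P := fun i z => Iso0 I (c i).m c₀.m {z} (u i)) (h.m x),
      ev_at (P := fun i z => Iso0 I (c i).m c₁.m {z} (u' i)) (h'.m x)] with i a b d
    rw [map_cs (a.J _ rfl).symm, cs_mul hJ, ← Circle.coe_mul, inv_mul_cancel_right]
    exact congrArg _ ((DFunLike.congr_fun (d.iso _ rfl).idem _).symm.trans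
      (congrArg (u' i x) (DFunLike.congr_fun (b.iso _ rfl).src _).symm))
  · have k4 : Tendsto (fun i => ((ζ' i * (ζ i)⁻¹ : Circle) : ℂ)) 𝒰 (𝓝 ξ) :=
      (continuous_subtype_val.tendsto ξ).comp hξ
    refine tendsto_nhds_unique_of_eventuallyEq h'.z ((k4.pow 2).smul h.z) (.of_forall fun i => ?_)
    simp only [smul_smul, ← mul_pow, ← Circle.coe_mul, inv_mul_cancel_right]

end uq

/-! ### the fields of the cuts -/

section cut
variable {κ κ' κ'' : Type} [Fintype κ] [Fintype κ'] [Fintype κ'']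

theorem LU_cs {J : En κ'} {J' : En κ''} (hJ : J' * J' = -1) {v : CL (Eu κ') (Eu κ'')}
    (h : v ∘L J = J' ∘L v) (η θ : Circle) (w : CL (Eu κ) (Eu κ')) (ψ : L2c κ) :
    LU (csE J' η ∘L v) (LU (csE J θ ∘L w) ψ) = LU (csE J' (η * θ : Circle) ∘L v ∘L w) ψ := by
  rw [LU_LU]
  refine congrArg (LU · ψ) (ContinuousLinearMap.ext fun a => ?_)
  exact (congrArg (cs J' η) (map_cs h θ (w a))).trans (cs_mul hJ _ _ _)

end cut

end Crest.Agent.X212.Glw30
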