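import Crest.Agent.X212.Loc66.Fcv
import Crest.Agent.X212.Mod61.Hs

/-!
# Row 212, GL-W (helper30), part 1: iterated filters, `C⁰` limits of almost parallel families
-/

set_option autoImplicit false
set_option linter.unusedSectionVars false
noncomputable section
open scoped Manifold ContDiff Topology InnerProductSpace
open Set Function Filter

namespace Crest.Agent.X212.Glw30
open An Pj41 Cmp73 Sob92
open Loc66 (VCv)
open Met55 (VF)

section flt
variable {α β X G : Type} [TopologicalSpace X] [TopologicalSpace G] {l : Filter α} {l' : Filter β}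
  {x : X}

theorem ev_ev {P : α → X → Prop} (h : ∀ᶠ q : α × X in l ×ˢ 𝓝 x, P q.1 q.2) :
    ∀ᶠ q : α × X in l ×ˢ 𝓝 x, ∀ᶠ y in 𝓝 q.2, P q.1 y := by
  obtain ⟨pa, ha, pb, hb, H⟩ := eventually_prod_iff.1 h
  exact (ha.prod_mk hb.eventually_nhds).mono fun q hq => hq.2.mono fun y hy => H hq.1 hy

theorem ev_at {P : α → X → Prop} (h : ∀ᶠ q : α × X in l ×ˢ 𝓝 x, P q.1 q.2) : ∀ᶠ i in l, P i x :=
  h.curry.mono fun _ k => k.self_of_nhds

theorem td_at {f : α → X → G} {c : G} (h : Tendsto (fun q : α × X => f q.1 q.2) (l ×ˢ 𝓝 x) (𝓝 c)) :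
    Tendsto (fun i => f i x) l (𝓝 c) := fun _ hs => ev_at (P := fun i y => f i y ∈ _) (h hs)

theorem td_curry0 {f : α → β → G} {g : α → G} {c : G} (h1 : Tendsto g l (𝓝 c))
    (h2 : ∀ᶠ i in l, Tendsto (f i) l' (𝓝 (g i))) :
    Tendsto (fun p : α × β => f p.1 p.2) (l.curry l') (𝓝 c) :=
  tendsto_nhds.2 fun _ hs hc => eventually_curry_iff.2
    ((h2.and (h1 (hs.mem_nhds hc))).mono fun _ hq => hq.1 (hs.mem_nhds hq.2))

variable [LocallyCompactSpace X]

theorem ev_curry {P : α → β → X → Prop}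
    (h : ∀ᶠ q : α × X in l ×ˢ 𝓝 x, ∀ᶠ r : β × X in l' ×ˢ 𝓝 q.2, P q.1 r.1 r.2) :
    ∀ᶠ p : (α × β) × X in l.curry l' ×ˢ 𝓝 x, P p.1.1 p.1.2 p.2 := by
  obtain ⟨pa, ha, pb, hb, H⟩ := eventually_prod_iff.1 h
  obtain ⟨K, hK, h1, h2⟩ := local_compact_nhds hb
  have : ∀ᶠ p in l.curry l', ∀ z ∈ K, P p.1 p.2 z := eventually_curry_iff.2
    (ha.mono fun i hi => ev_compact h2 (p := P i) fun z hz => H hi (h1 hz))
  exact (this.prod_mk hK).mono fun p hp => hp.1 _ hp.2

theorem td_curry {f : α → β → X → G} {g : α → X → G} {c : G}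
    (h1 : Tendsto (fun q : α × X => g q.1 q.2) (l ×ˢ 𝓝 x) (𝓝 c))
    (h2 : ∀ᶠ q : α × X in l ×ˢ 𝓝 x,
      Tendsto (fun r : β × X => f q.1 r.1 r.2) (l' ×ˢ 𝓝 q.2) (𝓝 (g q.1 q.2))) :
    Tendsto (fun p : (α × β) × X => f p.1.1 p.1.2 p.2) (l.curry l' ×ˢ 𝓝 x) (𝓝 c) :=
  tendsto_nhds.2 fun s hs hc => ev_curry (P := fun i j z => f i j z ∈ s)
    ((h2.and (h1 (hs.mem_nhds hc))).mono fun _ hq => hq.1 (hs.mem_nhds hq.2))

end flt

variable {E : Type} [NormedAddCommGroup E] [NormedSpace ℝ E] [FiniteDimensional ℝ E]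
  [MeasurableSpace E] [BorelSpace E]
  {HM : Type} [TopologicalSpace HM] {I : ModelWithCorners ℝ E HM} [I.Boundaryless]
  {M : Type} [TopologicalSpace M] [ChartedSpace HM M] [IsManifold I ∞ M]
  [MeasurableSpace M] {ι : Type} [Fintype ι] {α : Type} {l : Filter α}
  {G : Type} [NormedAddCommGroup G] [NormedSpace ℝ G] {x : M}

theorem vcv_td {X : α → VF I M} {Y : VF I M} (h : VCv l univ X Y) (x : M) :
    Tendsto (fun q : α × M => dv I (X q.1) (extChartAt I x) q.2) (l ×ˢ 𝓝 x)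
      (𝓝 (dv I Y (extChartAt I x) x)) := (h.mb 1 x trivial).tendsto (h.pt x trivial)

/-- derivatives of a fixed function along converging fields -/
theorem dv_td {X : α → VF I M} {Y : VF I M} (h : VCv l univ X Y) {f : M → G}
    (hf : ∀ᶠ y in 𝓝 x, FSm I f y) :
    Tendsto (fun q : α × M => dv I (X q.1) f q.2) (l ×ˢ 𝓝 x) (𝓝 (dv I Y f x)) := by
  have hs := mem_chart_source HM x
  refine ((MB.fixed hf).dv (h.mb 1 x trivial)).tendsto ?_
  simp only [dv_chart hs hf.self_of_nhds.md]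
  exact (ContinuousLinearMap.continuous _).continuousAt.tendsto.comp (h.pt x trivial)

theorem fsm_dv {X : VF I M} {f : M → G} {z : M} (hz : z ∈ (chartAt HM x).source)
    (hf : ∀ᶠ y in 𝓝 z, FSm I f y) (hX : FSm I (dv I X (extChartAt I x)) z) :
    FSm I (dv I X f) z := by
  have h1 := ((ev_smooth_chart hz hf).self_of_nhds.fderiv_right (m := ∞) le_rfl).contMDiffAt.comp z
    (contMDiffAt_extChartAt' (I := I) (n := ∞) hz)
  refine (h1.clm_apply hX).congr_of_eventuallyEq ?_
  filter_upwards [hf, (chartAt HM x).open_source.mem_nhds hz] with y a b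
  exact dv_chart b a.md X

/-- **limits of almost parallel families** -/
theorem lim_ode [T2Space M] [BorelSpace M] [SecondCountableTopology M]
    [FiniteDimensional ℝ G] {𝒰 : Ultrafilter α} {F : Pre I M ι} {e : α → ι → VF I M}
    (he : ∀ a, VCv 𝒰 univ (fun i => e i a) (F.e a)) {f : α → M → G} {L : ι → M → G →L[ℝ] G}
    (hL : ∀ a, Sm I (L a))
    (hf : ∀ x, ∀ᶠ q : α × M in (𝒰 : Filter α) ×ˢ 𝓝 x, FSm I (f q.1) q.2 ∧ ‖f q.1 q.2‖ ≤ 1)
    (hd : ∀ a x, Tendsto (fun q : α × M => dv I (e q.1 a) (f q.1) q.2 - L a q.2 (f q.1 q.2))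
      ((𝒰 : Filter α) ×ˢ 𝓝 x) (𝓝 0)) :
    ∃ g, Sm I g ∧ (∀ a x, F.D a g x = L a x (g x)) ∧
      ∀ x, Tendsto (fun q : α × M => f q.1 q.2) ((𝒰 : Filter α) ×ˢ 𝓝 x) (𝓝 (g x)) := by
  have := FiniteDimensional.proper_real G
  have : CompleteSpace E := FiniteDimensional.complete ℝ E
  have p0 : ∀ x, ∃ c, Tendsto (fun i => f i x) 𝒰 (𝓝 c) := fun x => by
    obtain ⟨c, -, hc⟩ := (isCompact_closedBall (0 : G) 1).ultrafilter_le_nhds (𝒰.map fun i => f i x)
      (le_principal_iff.2 ((ev_at (P := fun i y => FSm I (f i) y ∧ ‖f i y‖ ≤ 1) (hf x)).mono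
        fun i hi => mem_closedBall_zero_iff.2 hi.2))
    exact ⟨c, hc⟩
  choose g hg using p0
  have hR := fun x => exists_rinv (I := I) F.sm x (span_coef F x)
  choose R hR' hR using hR
  have sm := fun x => ev_ev (P := fun i y => FSm I (f i) y) ((hf x).mono fun _ k => k.1)
  have p1 : ∀ x, Tendsto (fun q : α × M => f q.1 q.2) ((𝒰 : Filter α) ×ˢ 𝓝 x) (𝓝 (g x)) := by
    intro x
    refine (MB.gain (X := fun a i => e i a) (fun a => (he a).mb 0 x trivial)
      (fun a => vcv_td (he a) x) (fun v => ⟨R x x v, (comb_apply _ _).symm.trans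
        ((hR x).self_of_nhds v)⟩) (MB.zero_of ((hf x).mono fun _ k => k.1)
          ⟨1, (hf x).mono fun _ k => k.2⟩) fun a => MB.zero_of ?_ ⟨1 + (‖L a x‖ + 1), ?_⟩).tendsto
      (hg x)
    · filter_upwards [sm x, ((he a).mb 0 x trivial).smooth,
        tendsto_snd.eventually (chart_source_mem_nhds HM x)] with q k1 k2 k3
      exact fsm_dv k3 k1 k2
    · filter_upwards [hf x, (hd a x).norm.eventually (gt_mem_nhds (norm_zero.trans_lt one_pos)),
        ((hL a).continuous.continuousAt.tendsto.comp tendsto_snd).norm.eventually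
          (gt_mem_nhds (lt_add_one _))] with q k1 k2 k3
      have k4 := (L a q.2).le_opNorm (f q.1 q.2)
      have k5 := norm_sub_norm_le (dv I (e q.1 a) (f q.1) q.2) (L a q.2 (f q.1 q.2))
      have k6 := mul_le_of_le_one_right (norm_nonneg (L a q.2)) k1.2
      simp only [comp_apply] at k3
      linarith
  have p2 : ∀ x, MDifferentiableAt I 𝓘(ℝ, G) g x ∧ ∀ a, F.D a g x = L a x (g x) := by
    intro x
    have hs := mem_chart_source HM x
    have d1 : ∀ a, Tendsto (fun q : α × M => dv I (e q.1 a) (f q.1) q.2) ((𝒰 : Filter α) ×ˢ 𝓝 x)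
        (𝓝 (L a x (g x))) := fun a => by
      have := (hd a x).add ((isBoundedBilinearMap_apply.continuous.tendsto (L a x, g x)).comp
        (((hL a).continuous.continuousAt.tendsto.comp tendsto_snd).prodMk_nhds (p1 x)))
      simpa only [zero_add, comp_apply, sub_add_cancel] using this
    let S : α × M → E →L[ℝ] E := fun q =>
      (comb ι E fun a => dv I (e q.1 a) (extChartAt I x) q.2).comp (R x x)
    have hS : Tendsto S ((𝒰 : Filter α) ×ˢ 𝓝 x) (𝓝 (.id ℝ E)) := by
      have := (((ContinuousLinearMap.compL ℝ E (ι → ℝ) E).flip (R x x)).continuous.tendsto _).comp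
        (((comb ι E).continuous.tendsto _).comp (tendsto_pi_nhds.2 fun a => vcv_td (he a) x))
      exact (show (comb ι E fun a => dv I (F.e a) (extChartAt I x) x).comp (R x x) = .id ℝ E from
        ContinuousLinearMap.ext (hR x).self_of_nhds) ▸ this
    have hi : (ContinuousLinearMap.id ℝ E).IsInvertible := ⟨ContinuousLinearEquiv.refl ℝ E, rfl⟩
    let D : α × M → E →L[ℝ] G := fun q =>
      (comb ι G fun a => dv I (e q.1 a) (f q.1) q.2).comp ((R x x).comp (S q).inverse)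
    obtain ⟨D₀, hD⟩ : ∃ D₀, Tendsto D ((𝒰 : Filter α) ×ˢ 𝓝 x) (𝓝 D₀) :=
      ⟨_, ((ContinuousLinearMap.compL ℝ E (ι → ℝ) G).continuous₂.tendsto (_, _)).comp
        ((((comb ι G).continuous.tendsto _).comp (tendsto_pi_nhds.2 d1)).prodMk_nhds
          (((ContinuousLinearMap.compL ℝ E E (ι → ℝ) (R x x)).continuous.tendsto _).comp
            ((hi.contDiffAt_map_inverse (n := 0)).continuousAt.tendsto.comp hS)))⟩
    have h3 : ∀ᶠ q : α × M in (𝒰 : Filter α) ×ˢ 𝓝 x, q.2 ∈ (chartAt HM x).source ∧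
        HasFDerivAt (f q.1 ∘ (extChartAt I x).symm) (D q) (extChartAt I x q.2) := by
      filter_upwards [hf x, hS.eventually (ContinuousLinearEquiv.isOpen.mem_nhds hi),
        tendsto_snd.eventually (chart_source_mem_nhds HM x)] with q k1 k2 k3
      exact ⟨k3, chart_hasFDerivAt (e := e q.1) k3 (R := (R x x).comp (S q).inverse)
        (fun v => ContinuousLinearMap.IsInvertible.self_apply_inverse k2 v) k1.1.md⟩
    have tm := (tendsto_id (x := (𝒰 : Filter α))).prodMap (tend_symm (I := I) hs)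
    have h4 : HasFDerivAt (g ∘ (extChartAt I x).symm) D₀ (extChartAt I x x) := by
      refine hasFDerivAt_of_tendstoUniformlyOnFilter (l := (𝒰 : Filter α)) (g' := fun _ => D₀)
        (f := fun i => f i ∘ (extChartAt I x).symm)
        (f' := fun i z => D (i, (extChartAt I x).symm z))
        (tendsto_prod_filter_iff.1 (hD.comp tm)) ?_ (.of_forall fun z => hg _)
      filter_upwards [tm.eventually h3, tendsto_snd.eventually (ev_target (I := I) hs)] with q k1 k2
      have := k1.2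
      simp only [Prod.map_fst, Prod.map_snd, id, (extChartAt I x).right_inv k2] at this
      exact this
    refine ⟨(of_chart_hasFDerivAt hs h4).1, fun a => ?_⟩
    rw [Pre.D_def, (of_chart_hasFDerivAt hs h4).2]
    refine tendsto_nhds_unique_of_eventuallyEq
      ((isBoundedBilinearMap_apply.continuous.tendsto (D₀, _)).comp
        (hD.prodMk_nhds (vcv_td (he a) x))) (d1 a) (h3.mono fun q k => ?_)
    exact ((of_chart_hasFDerivAt k.1 k.2).2 _).symm
  exact ⟨g, Mod61.sm_of_ode (fun x => (p2 x).1) (fun a x => (p2 x).2 a) hL,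
    fun a x => (p2 x).2 a, p1⟩

end Crest.Agent.X212.Glw30
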